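import Mathlib

/-!
# P284Y, rows S2 and E5: bookkeeping with a monotone submodular function
-/

open Finset

noncomputable section

namespace Vale.Agent.P284Y.Bk

variable {X : Type*} [AddCommMonoid X]

/-- `G` is monotone and submodular on the submonoid `P` -/
structure SM (P : X → Prop) (G : X → ℝ) : Prop where
  p0 : P 0
  padd : ∀ {a b}, P a → P b → P (a + b)
  zero : G 0 = 0
  mono : ∀ {a b}, P a → P b → G a ≤ G (a + b)
  sub : ∀ {a b c}, P a → P b → P c → G (a + b + c) - G (a + b) ≤ G (a + c) - G a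

/-- the increment `I(b | a)` -/
def II (G : X → ℝ) (b a : X) : ℝ := G (a + b) - G a

/-- the arc of the first `k` probes -/
def arc (p : ℕ → X) (k : ℕ) : X := ∑ i ∈ range k, p i

/-- `R` is a symmetry of `G` which moves the probes by one step -/
structure Rot (P : X → Prop) (G : X → ℝ) (R : X →+ X) (p : ℕ → X) : Prop where
  inv : ∀ {a}, P a → G (R a) = G a
  pp : ∀ i, P (p i)
  step : ∀ i, R (p i) = p (i + 1)

variable {P : X → Prop} {G : X → ℝ} {R : X →+ X} {p : ℕ → X} {a b c x0 nx ny : X}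

namespace SM

theorem II_nonneg (h : SM P G) (ha : P a) (hb : P b) : 0 ≤ II G b a :=
  sub_nonneg.2 (h.mono ha hb)

theorem nonneg (h : SM P G) (ha : P a) : 0 ≤ G a := by
  have := h.mono h.p0 ha
  rwa [h.zero, zero_add] at this

theorem II_add (h : SM P G) (ha : P a) (hb : P b) (hc : P c) : II G c (a + b) ≤ II G c a :=
  h.sub ha hb hc

theorem II_le (h : SM P G) (ha : P a) (hb : P b) : II G b a ≤ G b := by
  have := h.sub h.p0 ha hb
  rwa [h.zero, zero_add, zero_add, sub_zero] at this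

/-- the triangle inequality, also called FREE -/
theorem tri (h : SM P G) (ha : P a) (hb : P b) (hc : P c) : II G c a ≤ II G b a + II G c b := by
  have h1 := h.mono (h.padd ha hc) hb
  have h2 := h.sub hb ha hc
  rw [add_right_comm a c b] at h1
  rw [add_comm b a] at h2
  unfold II
  linarith

theorem arc_mem (h : SM P G) (hp : ∀ i, P (p i)) : ∀ k, P (arc p k)
  | 0 => h.p0
  | k + 1 => by
    unfold arc
    rw [sum_range_succ]
    exact h.padd (h.arc_mem hp k) (hp k)

/-- the increments along the arc decrease -/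
theorem conc (h : SM P G) (r : Rot P G R p) (ha : P a) (e : R a = a) (k : ℕ) :
    G (a + arc p (k + 2)) - G (a + arc p (k + 1)) ≤ G (a + arc p (k + 1)) - G (a + arc p k) := by
  have e1 : ∀ k, arc p (k + 1) = R (arc p k) + p 0 := fun k => by
    unfold arc
    rw [sum_range_succ', map_sum]
    simp only [r.step]
  have e2 : ∀ k, arc p (k + 1) = arc p k + p k := fun k => sum_range_succ _ _
  have hm := h.arc_mem r.pp
  have hR : P (R (arc p k)) := by
    have : R (arc p k) = arc (fun i => p (i + 1)) k := by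
      unfold arc
      rw [map_sum]
      simp only [r.step]
    rw [this]
    exact h.arc_mem (fun i => r.pp _) k
  have h1 := h.sub (h.padd ha hR) (r.pp 0) (r.pp (k + 1))
  have h2 := r.inv (h.padd ha (hm k))
  have h3 := r.inv (h.padd ha (hm (k + 1)))
  rw [map_add, e] at h2 h3
  rw [e2, map_add, r.step, ← add_assoc, ← e2] at h3
  rw [h2, h3, add_assoc a _ (p 0), ← e1, add_assoc, ← e2] at h1
  exact h1

end SM

/-- a concave sequence -/
theorem seq_conc {h : ℕ → ℝ} (hc : ∀ k, h (k + 2) - h (k + 1) ≤ h (k + 1) - h k) (m D : ℕ) :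
    h m - h 0 ≤ m * (h 1 - h 0) ∧ m * (h (m + D) - h m) ≤ D * (h m - h 0) := by
  have ha : Antitone fun k => h (k + 1) - h k := antitone_nat_of_succ_le hc
  have s : ∀ a k, ∑ i ∈ range k, (h (a + i + 1) - h (a + i)) = h (a + k) - h a := fun a k =>
    sum_range_sub (fun i => h (a + i)) k
  have h1 : h m - h 0 ≤ m * (h 1 - h 0) := by
    have := sum_le_card_nsmul (range m) (fun i => h (0 + i + 1) - h (0 + i)) (h 1 - h 0)
      fun i _ => ha (Nat.zero_le (0 + i))
    rwa [s, card_range, nsmul_eq_mul, zero_add] at this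
  have h2 : m * (h (m + 1) - h m) ≤ h m - h 0 := by
    have := card_nsmul_le_sum (range m) (fun i => h (0 + i + 1) - h (0 + i)) (h (m + 1) - h m)
      fun i hi => ha (by simpa using (mem_range.1 hi).le)
    rwa [s, card_range, nsmul_eq_mul, zero_add] at this
  have h3 : h (m + D) - h m ≤ D * (h (m + 1) - h m) := by
    have := sum_le_card_nsmul (range D) (fun i => h (m + i + 1) - h (m + i)) (h (m + 1) - h m)
      fun i _ => ha (Nat.le_add_right m i)
    rwa [s, card_range, nsmul_eq_mul] at this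
  refine ⟨h1, (mul_le_mul_of_nonneg_left h3 m.cast_nonneg).trans ?_⟩
  rw [mul_left_comm]
  exact mul_le_mul_of_nonneg_left h2 D.cast_nonneg

namespace SM

theorem arc_le (h : SM P G) (r : Rot P G R p) (ha : P a) (e : R a = a) (m : ℕ) :
    G (a + arc p m) ≤ G a + m * II G (p 0) a := by
  have := (seq_conc (h := fun k => G (a + arc p k)) (h.conc r ha e) m 0).1
  simp only [arc, range_zero, sum_empty, add_zero, range_one, sum_singleton] at this
  unfold II arc
  linarith

variable {N : ℕ} {th U ε κ ρ gb d : ℝ}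

/-- **S2**, upper bound of the saving -/
theorem s2_up (h : SM P G) (r : Rot P G R p) (hx : P nx) (ex : R nx = nx) (hN : th * N = 1)
    (h0 : 0 < th) (e1 : II G (p 0) nx ≤ II G (p 0) x0 + ε * (th * U)) (e2 : G nx ≤ (1 + ε) * U)
    (e4 : N * gb - (1 + ε) * U ≤ G (arc p N)) :
    gb - II G (p 0) x0 ≤ (2 + 3 * ε) * (th * U) := by
  have h1 := h.arc_le r hx ex N
  have h2 := h.mono (h.arc_mem r.pp N) hx
  rw [add_comm] at h2
  have h3 : N * gb - 2 * (1 + ε) * U ≤ N * II G (p 0) nx := by linarith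
  have h4 := mul_le_mul_of_nonneg_left h3 h0.le
  rw [mul_sub, ← mul_assoc, ← mul_assoc th N, hN] at h4
  linarith

/-- **S2**: a nearly maximal saving forces the two backgrounds to be nearly the same -/
theorem s2 (h : SM P G) (r : Rot P G R p) (hx : P nx) (hy : P ny) (ex : R nx = nx)
    (ey : R ny = ny) (hN : th * N = 1) (h0 : 0 < th) (hU : 0 ≤ U) (hε : 0 ≤ ε)
    (hρ : 2 * κ + 8 * ε ≤ ρ ^ 2) (hρ1 : th ≤ ρ) (hρ2 : ρ ≤ 1 / 2)
    (e1 : II G (p 0) nx ≤ II G (p 0) x0 + ε * (th * U)) (e2x : G nx ≤ (1 + ε) * U)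
    (e2y : G ny ≤ (1 + ε) * U) (e3 : II G (p 0) ny ≤ gb - 2 * (1 - ε) * (th * U))
    (e4 : ∀ k : ℕ, N ≤ k → k ≤ 2 * N → k * gb - (k * th) ^ 2 * (1 + ε) * U ≤ G (arc p k))
    (sav : 2 * (1 - κ) * (th * U) ≤ gb - II G (p 0) x0) : G (nx + ny) ≤ (1 + 4 * ρ) * U := by
  have hN' : (N : ℝ) * (th * U) = U := by rw [← mul_assoc, mul_comm _ th, hN, one_mul]
  have hm := h.arc_mem r.pp
  have n0 : (0 : ℝ) ≤ N := N.cast_nonneg
  have a1 := h.arc_le r hx ex N
  have a2 := h.arc_le r hy ey N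
  have a3 := mul_le_mul_of_nonneg_left (e1.trans (by linarith :
    II G (p 0) x0 + ε * (th * U) ≤ gb - (2 * (1 - κ) - ε) * (th * U))) n0
  have a4 := mul_le_mul_of_nonneg_left e3 n0
  rw [mul_sub, mul_left_comm, hN'] at a3 a4
  have a5 := e4 N le_rfl (by omega)
  rw [mul_comm _ th, hN] at a5
  have a6 := h.sub (hm N) hy hx
  rw [add_comm _ nx, add_comm _ ny, add_comm _ nx, ← add_assoc] at a6
  have b1 : G (nx + ny + arc p N) - N * gb ≤ -(1 - 2 * κ - 6 * ε) * U := by linarith
  obtain ⟨D, hD⟩ : ∃ D, D = ⌈ρ * N⌉₊ := ⟨_, rfl⟩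
  have ρ0 : 0 < ρ := h0.trans_le hρ1
  have d1 : ρ * N ≤ D := hD ▸ Nat.le_ceil _
  have d2 : (D : ℝ) ≤ ρ * N + 1 := hD ▸ (Nat.ceil_lt_add_one (by positivity)).le
  have d3 : D ≤ N := hD ▸ Nat.ceil_le.2
    (by linarith [mul_le_mul_of_nonneg_right hρ2 n0])
  have c1 : ρ ≤ D * th := by
    have := mul_le_mul_of_nonneg_right d1 h0.le
    rwa [mul_assoc, mul_comm _ th, hN, mul_one] at this
  have c2 : D * th ≤ 2 * ρ := by
    have := mul_le_mul_of_nonneg_right d2 h0.le
    rw [add_mul, mul_assoc, mul_comm (N : ℝ) th, hN] at this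
    linarith
  have b2 := e4 (N + D) (by omega) (by omega)
  have b3 := h.mono (hm (N + D)) (h.padd hx hy)
  rw [add_comm (arc p _)] at b3
  have b4 := (seq_conc (h := fun k => G (nx + ny + arc p k)) (h.conc r (h.padd hx hy)
    (by rw [map_add, ex, ey])) N D).2
  have b5 := mul_le_mul_of_nonneg_left b4 h0.le
  simp only [show arc p 0 = 0 from rfl, add_zero] at b5
  rw [← mul_assoc, hN, ← mul_assoc, mul_comm th] at b5
  rw [Nat.cast_add, add_mul _ _ th, mul_comm _ th, hN, add_mul] at b2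
  have e5 : (D : ℝ) * gb = D * th * (N * gb) := by
    rw [mul_assoc, ← mul_assoc th, hN, one_mul]
  generalize (D : ℝ) * th = δ at *
  have δ0 : 0 < δ := ρ0.trans_le c1
  refine le_of_mul_le_mul_left ?_ δ0
  have b6 := mul_le_mul_of_nonneg_left b1 (by linarith : 0 ≤ 1 + δ)
  have b7 : (1 + δ) * (2 * κ + 7 * ε + δ + δ * ε) ≤ δ * (1 + 4 * ρ) := by
    have t1 : 2 * κ + 7 * ε + δ + δ * ε ≤ δ * (1 + ρ) := by
      linarith [mul_le_mul_of_nonneg_right c1 ρ0.le,
        mul_le_mul_of_nonneg_right (by linarith : δ ≤ 1) hε]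
    have t2 : (1 + δ) * (1 + ρ) ≤ 1 + 4 * ρ := by
      linarith [mul_le_mul_of_nonneg_right (by linarith : δ ≤ 1) ρ0.le]
    calc _ ≤ (1 + δ) * (δ * (1 + ρ)) := mul_le_mul_of_nonneg_left t1 (by linarith)
      _ = δ * ((1 + δ) * (1 + ρ)) := by ring
      _ ≤ _ := mul_le_mul_of_nonneg_left t2 δ0.le
  have b8 := mul_le_mul_of_nonneg_right b7 hU
  linarith

/-- **E5** -/
theorem e5 (h : SM P G) (hp : P a) (hx : P nx) (hy : P ny) (e1 : II G a x0 ≤ II G a nx + d)
    (e3 : II G a ny ≤ gb - U) : U - d - II G ny nx ≤ gb - II G a x0 := by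
  linarith [h.tri hx hy hp]

/-- **Y8**: a background which is free given both others -/
theorem via (h : SM P G) (ha : P a) (hx : P nx) (hy : P ny) (fx : II G a nx ≤ d)
    (fy : II G a ny ≤ d) : II G ny nx ≤ 2 * d + (G ny - G a) := by
  have := h.tri hx ha hy
  unfold II at *
  rw [add_comm a ny] at this
  linarith

end SM

end Vale.Agent.P284Y.Bk
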