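import Vale.Agent.P284Y.GenSpec
import Vale.Agent.P284Y.Y.Bk.Sub

/-!
# P284Y, row Y7: comparison of the defect measures
-/

open scoped Topology
open Filter Set Function MeasureTheory

noncomputable section

namespace Vale.Agent.P284Y.Bk

section push
variable {Y Γ : Type*} [MeasurableSpace Y] {μ : Measure Y} [Countable Γ] {P : Γ → Y → ℝ}
  {f f' : Y → ℝ}

/-- a measurable partition of unity -/
structure PU (P : Γ → Y → ℝ) : Prop where
  meas : ∀ g, Measurable (P g)
  nonneg : ∀ g y, 0 ≤ P g y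
  sum : ∀ y, HasSum (fun g => P g y) 1

omit [Countable Γ] in
theorem PU.int (h : PU P) (hf : Integrable f μ) (g : Γ) : Integrable (fun y => f y * P g y) μ :=
  hf.mul_bdd (c := 1) (h.meas g).aestronglyMeasurable (Eventually.of_forall fun y => by
    rw [Real.norm_of_nonneg (h.nonneg g y)]
    exact le_hasSum (h.sum y) g fun j _ => h.nonneg j y)

theorem PU.hasSum (h : PU P) (hf : Integrable f μ) :
    HasSum (fun g => ∫ y, f y * P g y ∂μ) (∫ y, f y ∂μ) := by
  have h1 := hasSum_integral_of_summable_integral_norm (h.int hf)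
    (summable_of_sum_le (c := ∫ y, |f y| ∂μ) (fun g => integral_nonneg fun y => norm_nonneg _)
      fun s => by
        rw [← integral_finsetSum _ fun g _ => (h.int hf g).norm]
        refine integral_mono (integrable_finsetSum _ fun g _ => (h.int hf g).norm) hf.abs
          fun y => ?_
        simp only [norm_mul, Real.norm_eq_abs, abs_of_nonneg (h.nonneg _ y), ← Finset.mul_sum]
        exact mul_le_of_le_one_right (abs_nonneg _)
          (sum_le_hasSum s (fun g _ => h.nonneg g y) (h.sum y)))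
  simpa only [((h.sum _).mul_left _).tsum_eq, mul_one] using h1

theorem PU.l1 (h : PU P) (hf : Integrable f μ) (hf' : Integrable f' μ) :
    ∑' g, |∫ y, f y * P g y ∂μ - ∫ y, f' y * P g y ∂μ| ≤ ∫ y, |f y - f' y| ∂μ := by
  have h1 := h.hasSum (hf.sub hf').abs
  have h2 : ∀ g, |∫ y, f y * P g y ∂μ - ∫ y, f' y * P g y ∂μ| ≤
      ∫ y, |f y - f' y| * P g y ∂μ := fun g => by
    rw [← integral_sub (h.int hf g) (h.int hf' g)]
    refine abs_integral_le_integral_abs.trans (le_of_eq (integral_congr_ae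
      (Eventually.of_forall fun y => ?_)))
    simp only [← sub_mul, abs_mul, abs_of_nonneg (h.nonneg g y)]
  exact (Summable.tsum_le_tsum h2 (.of_nonneg_of_le (fun _ => abs_nonneg _) h2 h1.summable)
    h1.summable).trans_eq h1.tsum_eq

omit [Countable Γ] in
theorem l1_of_le {e : Y → ℝ} (hf : Integrable f μ) (hf' : Integrable f' μ) (he : Integrable e μ)
    (h : ∀ᵐ y ∂μ, 0 ≤ e y ∧ f y ≤ f' y + e y) :
    ∫ y, |f y - f' y| ∂μ ≤ 2 * ∫ y, e y ∂μ + (∫ y, f' y ∂μ - ∫ y, f y ∂μ) := by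
  rw [← integral_sub hf' hf, ← integral_const_mul,
    ← integral_add (g := fun y => f' y - f y) (he.const_mul 2) (hf'.sub hf)]
  refine integral_mono_ae (hf.sub hf').abs ((he.const_mul 2).add (hf'.sub hf))
    (h.mono fun y hy => abs_le.2 ⟨?_, ?_⟩) <;> linarith [hy.1, hy.2]

end push

variable {N : ℕ} {M : Type} [TopologicalSpace M] [MeasurableSpace M] {Q : Pat N M}
  {μ : Measure M} {S : MAS Q μ} {ν ν' A : M → ℝ}

theorem sm_of_gen (hG : Gen S) : SM Q.Dens S.G where
  p0 := hG.pg.dens_zero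
  padd := hG.pg.dens_add _ _
  zero := S.G0
  mono ha hb := hG.G_mono _ _ ha (hG.pg.dens_add _ _ ha hb) (le_add_of_nonneg_right hb.nonneg)
  sub ha hb hc := hG.sub _ _ _ ha (hG.pg.dens_add _ _ ha hb) hc (le_add_of_nonneg_right hb.nonneg)

theorem dd_close (hG : Gen S) (hν : Q.Dens ν) (hν' : Q.Dens ν') :
    ∫ y, |S.DD ν y - S.DD ν' y| ∂μ ≤ II S.G ν' ν + II S.G ν ν' := by
  have hs := hG.pg.dens_add _ _ hν hν'
  have h := l1_of_le (hG.dd _ hν).1 (hG.dd _ hν').1 ((hG.dd _ hs).1.sub (hG.dd _ hν').1)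
    (Eventually.of_forall fun y => ⟨sub_nonneg.2 (hG.dd_mono _ _ hν' hs
      (le_add_of_nonneg_left hν.nonneg) y), by
        simpa using hG.dd_mono _ _ hν hs (le_add_of_nonneg_right hν'.nonneg) y⟩)
  simp only [Pi.sub_apply] at h
  rw [integral_sub (hG.dd _ hs).1 (hG.dd _ hν').1, (hG.dd _ hs).2.2, (hG.dd _ hν).2.2,
    (hG.dd _ hν').2.2] at h
  unfold II
  rw [add_comm ν' ν]
  linarith

theorem cont_ray (hG : Gen S) (hν : Q.Dens ν) (hA : Q.Dens A) {h : ℝ} (hh : 1 ≤ h) (y : M) :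
    Continuous fun l : ℝ => S.φ (Real.exp (-(h * l)) • A + Real.exp (-l) • ν) y := by
  have hd : ∀ l : ℝ, Q.Dens (Real.exp (-(h * l)) • A + Real.exp (-l) • ν) := fun l =>
    hG.pg.dens_add _ _ (hG.pg.dens_smul _ _ (Real.exp_pos _).le hA)
      (hG.pg.dens_smul _ _ (Real.exp_pos _).le hν)
  refine (LipschitzWith.of_le_add_mul' h fun a b => ?_).continuous
  have h0 : 0 ≤ h * |a - b| := by positivity
  refine sub_le_iff_le_add.1 (hG.cmp _ _ _ (hd a) (hd b) h0 (fun x => ?_) y)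
  have h1 : Real.exp (-(h * b)) ≤ Real.exp (h * |a - b|) * Real.exp (-(h * a)) := by
    rw [← Real.exp_add]
    exact Real.exp_le_exp.2 (by nlinarith [le_abs_self (a - b)])
  have h2 : Real.exp (-b) ≤ Real.exp (h * |a - b|) * Real.exp (-a) := by
    rw [← Real.exp_add]
    exact Real.exp_le_exp.2 (by nlinarith [le_abs_self (a - b), abs_nonneg (a - b)])
  simp only [Pi.add_apply, Pi.smul_apply, smul_eq_mul]
  nlinarith [Real.one_le_exp h0, mul_le_mul_of_nonneg_right h1 (hA.nonneg x),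
    mul_le_mul_of_nonneg_right h2 (hν.nonneg x)]

theorem int_gap (hG : Gen S) (hν : Q.Dens ν) (hA : Q.Dens A) :
    Integrable (fun y => Real.exp (S.φ A y) - Real.exp (S.φ (A + ν) y)) μ ∧
    (∀ y, 0 ≤ Real.exp (S.φ A y) - Real.exp (S.φ (A + ν) y)) ∧
    ∫ y, (Real.exp (S.φ A y) - Real.exp (S.φ (A + ν) y)) ∂μ ≤ S.ms A ν := by
  have hs := hG.pg.dens_add _ _ hA hν
  have e : (fun y => Real.exp (S.φ A y) - Real.exp (S.φ (A + ν) y)) =
      fun y => (1 - Real.exp (S.φ (A + ν) y)) - (1 - Real.exp (S.φ A y)) := by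
    funext y
    ring
  refine ⟨e ▸ (S.mi _ hs).1.sub (S.mi _ hA).1, fun y => sub_nonneg.2 (Real.exp_le_exp.2
    (hG.mono _ _ hA hs (le_add_of_nonneg_right hν.nonneg) y)), ?_⟩
  rw [e, integral_sub (S.mi _ hs).1 (S.mi _ hA).1, (S.mi _ hs).2, (S.mi _ hA).2]
  have h1 := hG.ms_mono _ _ _ _ hs hA hs hs (le_add_of_nonneg_right hν.nonneg) le_rfl
  rw [hG.ms_add _ _ _ hA hA hν] at h1
  exact sub_le_iff_le_add'.2 h1

/-- **Y7**: `DD ν` is nearly below `DD A / h` -/
theorem dd_cmp [OpensMeasurableSpace M] (hG : Gen S) (hν : Q.Dens ν) (hA : Q.Dens A) {h I : ℝ}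
    (hh : 1 ≤ h) (hI : 1 ≤ I)
    (h1 : ∀ l ∈ Icc 0 I, S.ms (Real.exp (-(h * l)) • A) (Real.exp (-l) • ν) ≤ 1)
    (h2 : ∫ y, ν y ∂μ ≤ Real.exp I) :
    ∫ y, |S.DD ν y - S.DD A y / h| ∂μ ≤ 6 * I + (S.G A / h - S.G ν) := by
  have := hG.pg.sf
  have dA : ∀ l : ℝ, Q.Dens (Real.exp (-(h * l)) • A) := fun l =>
    hG.pg.dens_smul _ _ (Real.exp_pos _).le hA
  have dν : ∀ l : ℝ, Q.Dens (Real.exp (-l) • ν) := fun l =>
    hG.pg.dens_smul _ _ (Real.exp_pos _).le hν
  obtain ⟨B, hB⟩ : ∃ B : ℝ → M → ℝ, B = fun l y => Real.exp (S.φ (Real.exp (-(h * l)) • A) y) -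
    Real.exp (S.φ (Real.exp (-(h * l)) • A + Real.exp (-l) • ν) y) := ⟨_, rfl⟩
  have g : ∀ l, Integrable (B l) μ ∧ (∀ y, 0 ≤ B l y) ∧
      ∫ y, B l y ∂μ ≤ S.ms (Real.exp (-(h * l)) • A) (Real.exp (-l) • ν) := fun l =>
    hB ▸ int_gap hG (dν l) (dA l)
  have m : Measurable (uncurry B) := by
    refine measurable_uncurry_of_continuous_of_measurable (fun y => ?_) fun l => ?_
    · have := cont_ray hG hG.pg.dens_zero hA hh y
      simp only [smul_zero, add_zero] at this
      rw [hB]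
      exact this.rexp.sub (cont_ray hG hν hA hh y).rexp
    · rw [hB]
      exact ((hG.cont _ (dA l)).rexp.sub
        (hG.cont _ (hG.pg.dens_add _ _ (dA l) (dν l))).rexp).measurable
  have I0 : 0 < I := by linarith
  have b : ∀ l ∈ Ioi (0 : ℝ), ∫ y, B l y ∂μ ≤ 3 * Real.exp (-I⁻¹ * l) := fun l hl => by
    have e3 : Real.exp (1 + -I⁻¹ * l) ≤ 3 * Real.exp (-I⁻¹ * l) := by
      rw [Real.exp_add]
      exact mul_le_mul_of_nonneg_right (Real.exp_one_lt_d9.le.trans (by norm_num))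
        (Real.exp_pos _).le
    have e4 : 1 + -I⁻¹ * l = (I - l) / I := by field_simp; ring
    refine ((g l).2.2.trans ?_).trans e3
    rw [e4]
    rcases le_total l I with hl' | hl'
    · exact (h1 l ⟨le_of_lt hl, hl'⟩).trans (Real.one_le_exp (div_nonneg (by linarith) I0.le))
    · refine (hG.ms_le _ _ 0 (dA l) (dν l) fun y _ => S.nonpos _ (dA l) y).trans ?_
      simp only [Real.exp_zero, one_mul, Pi.smul_apply, smul_eq_mul, integral_const_mul]
      refine (mul_le_mul_of_nonneg_left h2 (Real.exp_pos _).le).trans ?_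
      rw [← Real.exp_add, Real.exp_le_exp, le_div_iff₀ I0]
      nlinarith
  have ie := (exp_neg_integrableOn_Ioi 0 (inv_pos.2 I0)).const_mul 3
  have n : ∀ l, ∫ y, ‖B l y‖ ∂μ = ∫ y, B l y ∂μ := fun l =>
    integral_congr_ae (Eventually.of_forall fun y => Real.norm_of_nonneg ((g l).2.1 y))
  have ib : Integrable (uncurry B) ((volume.restrict (Ioi 0)).prod μ) := by
    refine (integrable_prod_iff m.aestronglyMeasurable).2 ⟨Eventually.of_forall fun l => (g l).1,
      ie.mono' m.aestronglyMeasurable.norm.integral_prod_right' ?_⟩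
    filter_upwards [ae_restrict_mem measurableSet_Ioi] with l hl
    change ‖∫ y, ‖B l y‖ ∂μ‖ ≤ _
    rw [n, Real.norm_of_nonneg (integral_nonneg (g l).2.1)]
    exact b l hl
  have h0 : 0 < h := by linarith
  have key := l1_of_le (hG.dd _ hν).1 ((hG.dd _ hA).1.div_const h) ib.integral_prod_right
    (ib.prod_left_ae.mono fun y hy => ⟨integral_nonneg fun l => (g l).2.1 y, by
      have i1 := (integrableOn_Ioi_comp_mul_left_iff
        (fun l => 1 - Real.exp (S.φ (Real.exp (-l) • A) y)) 0 h0).2 (by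
          rw [mul_zero]; exact hG.dd_ray _ y hA)
      have i2 := integral_comp_mul_left_Ioi
        (fun l => 1 - Real.exp (S.φ (Real.exp (-l) • A) y)) 0 h0
      rw [mul_zero, smul_eq_mul, ← div_eq_inv_mul] at i2
      unfold MAS.DD
      rw [← i2, ← integral_add i1 hy]
      refine integral_mono (hG.dd_ray _ y hν) (i1.add hy) fun l => ?_
      have := Real.exp_le_exp.2 (hG.mono _ _ (dν l) (hG.pg.dens_add _ _ (dA l) (dν l))
        (le_add_of_nonneg_left (dA l).nonneg) y)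
      simp only [hB, uncurry_apply_pair]
      linarith⟩)
  rw [integral_div, (hG.dd _ hν).2.2, (hG.dd _ hA).2.2] at key
  refine key.trans (add_le_add_left ?_ _)
  have s := integral_integral_swap ib
  have t := setIntegral_mono_on ib.integral_prod_left ie measurableSet_Ioi b
  rw [integral_const_mul, integral_exp_mul_Ioi (neg_lt_zero.2 (inv_pos.2 I0)), mul_zero,
    Real.exp_zero, neg_div_neg_eq, one_div, inv_inv] at t
  change 2 * ∫ y, (∫ l in Ioi 0, B l y) ∂μ ≤ _
  rw [← s]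
  change ∫ l in Ioi 0, (∫ y, B l y ∂μ) ≤ _ at t
  linarith

end Vale.Agent.P284Y.Bk
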