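import Vale.Agent.P284Y.Y.Bg
import Vale.Agent.P284Y.Y.Bk.DD

/-!
# P284Y, rows Y7 and Y8: comparisons of solutions
-/

open scoped Topology
open Filter Set Function MeasureTheory

noncomputable section

namespace Vale.Agent.P284Y.Bk

open Vale.Agent.P272.K Vale.Agent.P284Z Vale.Agent.P284Y.Y Vale.Agent.P284Y.Y.Bq Real

section pat
variable {N : ℕ} {M : Type} [TopologicalSpace M] [MeasurableSpace M] {Q : Pat N M}
  {μ : Measure M} {S : MAS Q μ} {X p : M → ℝ}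

/-- **Y8**: a density which lies in the well of `X` does not dig deeper than `X` -/
theorem cmp_low (hG : Gen S) (hX : Q.Dens X) (hp : Q.Dens p) {e D K : ℝ} (e0 : 0 ≤ e) (e1 : e ≤ 1)
    (hD : ∀ y, p y ≠ 0 → S.φ X y ≤ -D) (hb : ∀ y, p y ≤ exp ((1 - e) * D))
    (hK : 2 * exp (-K) ≤ e ^ N) (y : M) : S.φ X y - K ≤ S.φ p y := by
  have hP := hG.pg
  have K0 : 0 ≤ K := by
    by_contra! h
    linarith [one_le_exp (neg_nonneg.2 h.le), pow_le_one₀ (n := N) e0 e1]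
  have np : ∀ y, (1 - e) * S.φ X y ≤ 0 := fun y =>
    mul_nonpos_of_nonneg_of_nonpos (by linarith) (S.nonpos _ hX y)
  refine le_trans ?_ (hG.vc p univ (fun y => (1 - e) * S.φ X y - K) hp isOpen_univ
    (Continuous.continuousOn (by have := hG.cont _ hX; fun_prop)).upperSemicontinuousOn
    (by simp) (fun ε hε => ⟨∅, isCompact_empty, fun y _ => by linarith [np y]⟩)
    (fun y _ _ => ?_) y trivial)
  · linarith [mul_nonpos_of_nonneg_of_nonpos e0 (S.nonpos _ hX y)]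
  obtain ⟨a1, a2⟩ := hG.sp _ hP.dens_zero y trivial
  obtain ⟨b1, b2⟩ := hG.sp _ hX y trivial
  obtain ⟨c1, -, c3, -⟩ := hP.ma_cvx _ _ e y e0 e1 b1 a1 b2 a2
  have d1 := sm_ad (sm_ml (sm_c (1 - e)) b1) (sm_ml (sm_c e) a1)
  rw [hG.ma _ hP.dens_zero] at c3
  rw [hG.zero] at c1 c3 d1
  refine hP.tch (fun x => (1 - e) * S.φ X x + e * (0 : M → ℝ) x + -K) _ _ y
    (sm_ad d1 (sm_c _)) (psd_ac d1 S.ok c1 _) (by simp [sub_eq_add_neg])
    (Eventually.of_forall fun x => by simp [sub_eq_add_neg]) ?_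
  rw [hP.ma_congr _ _ (-K) y (Eventually.of_forall fun x => rfl)]
  refine le_trans ?_ c3
  simp only [Pi.zero_apply, exp_zero, add_zero, mul_one]
  refine le_trans ?_ hK
  have h1 : exp ((1 - e) * S.φ X y) * p y ≤ 1 := by
    by_cases o : p y = 0
    · simp [o]
    · refine (mul_le_mul_of_nonneg_left (hb y) (exp_pos _).le).trans ?_
      rw [← exp_add, exp_le_one_iff, ← mul_add]
      exact mul_nonpos_of_nonneg_of_nonpos (by linarith) (by linarith [hD y o])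
  rw [sub_eq_add_neg, exp_add, mul_right_comm]
  exact mul_le_mul_of_nonneg_right (by linarith [exp_le_one_iff.2 (np y)]) (exp_pos _).le

theorem ms_le_ms (hG : Gen S) {X' : M → ℝ} (hX : Q.Dens X) (hX' : Q.Dens X') (hp : Q.Dens p) {K : ℝ}
    (h : ∀ y, p y ≠ 0 → S.φ X y ≤ S.φ X' y + K) : S.ms X p ≤ exp K * S.ms X' p := by
  rw [MAS.ms, MAS.ms, ← integral_const_mul]
  refine integral_mono (hG.pg.dens_int _ _ hp (continuous_exp.comp (hG.cont _ hX)))
    ((hG.pg.dens_int _ _ hp (continuous_exp.comp (hG.cont _ hX'))).const_mul _) fun y => ?_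
  by_cases o : p y = 0
  · simp [o]
  · simp only
    rw [← mul_assoc, ← exp_add, add_comm]
    exact mul_le_mul_of_nonneg_right (exp_le_exp.2 (h y o)) (hp.nonneg y)

end pat

variable {n : ℕ} {Γ E : Type} [Group Γ] [TopologicalSpace E] [MulAction Γ E] [MeasurableSpace E]
  {C : Cov n Γ E} {β m : ℝ} {μ : Measure (E × ℂ)} {S : MAS (QY C β m) μ} {X X' ν ν' : E × ℂ → ℝ}
  {r K S' M δ δ' κ κ' : ℝ}

/-- **Y7**: lowering the height of the pole -/
theorem shift (hG : Gen S) (hX : (QY C β m).Dens X) (hs : ∀ y, X y ≠ 0 → ‖y.2‖ ^ 2 ≤ exp (-S'))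
    (hr : ∀ y, X y ≠ 0 → ‖y.2‖ ≤ r) (r0 : 0 < r) (S0 : 0 ≤ S') (hg : Glu S X r K) {b l : ℝ}
    (b0 : 0 ≤ b) (l0 : 0 ≤ l) (hl : l ≤ b * S') (hK : b * (1 - log (r ^ 2)) ≤ K) (y : E × ℂ)
    (h0 : y.2 ≠ 0) (h1 : ‖y.2‖ < 1 / 2) :
    S.φ (exp (-l) • X) y ≤ S.φ X y + (b * (1 - log (‖y.2‖ ^ 2)) + 2) := by
  have hP := hG.pg
  have hX' := hP.dens_smul _ X (exp_pos (-l)).le hX
  have lo : ∀ w : ℂ, w ≠ 0 → b * (log (‖w‖ ^ 2) - 1) ≤
      b * log (‖w - 0‖ ^ 2 + exp (-S')) + -b := fun w hw => by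
    have := log_le_log (show 0 < ‖w‖ ^ 2 by positivity)
      (le_add_of_nonneg_right (exp_pos (-S')).le)
    rw [sub_zero]
    nlinarith
  have up : ∀ (w : ℂ) (t : ℝ), ‖w‖ ^ 2 ≤ exp t → -S' ≤ t →
      b * log (‖w - 0‖ ^ 2 + exp (-S')) + -b ≤ b * t := fun w t h h' => by
    have h2 : ‖w - 0‖ ^ 2 + exp (-S') ≤ exp (t + 1) := by
      rw [sub_zero, exp_add]
      nlinarith [exp_le_exp.2 h', add_one_le_exp (1 : ℝ), exp_pos t]
    have := (log_le_iff_le_exp (by positivity)).2 h2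
    nlinarith
  have pw : ∀ w, PW n (fun w => b * log (‖w - 0‖ ^ 2 + exp (-S')) + -b) w := fun w =>
    ((pw_lg 0 (exp_pos _)).cmul b0).add (pw_c _)
  have key := (hg X (fun y => S.φ (exp (-l) • X) y +
    (b * log (‖y.2 - 0‖ ^ 2 + exp (-S')) + -b)) hX hr ((hG.cont _ hX').add
      ((continuous_const.mul (Continuous.log (by fun_prop) fun y => by positivity)).add
        continuous_const)) (fun y hy => ?_) fun y hy => ?_).1 y h1
  · linarith [lo _ h0]
  · have u0 := up y.2 0 (by rw [exp_zero]; exact pow_le_one₀ (norm_nonneg _) hy) (by linarith)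
    obtain ⟨b1, b2⟩ := hG.sp _ hX' y trivial
    obtain ⟨c1, c2⟩ := addW hP S.ok b1 b2 (pw y.2)
    refine ⟨by linarith [S.nonpos _ hX' y], hP.tch _ _ _ y (sm_ad b1 (pw y.2).sm) c1 rfl
      (Eventually.of_forall fun _ => le_rfl) (le_trans ?_ c2)⟩
    rw [hG.ma _ hX', exp_add, mul_assoc, mul_add, mul_one]
    refine mul_le_mul_of_nonneg_left (add_le_add (exp_le_one_iff.2 (by linarith)) ?_) (exp_pos _).le
    by_cases o : X y = 0
    · simp [o]
    · exact mul_le_mul_of_nonneg_right (exp_le_exp.2 (by linarith [up y.2 _ (hs y o) le_rfl]))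
        (hX.nonneg y)
  · have := hG.mono _ _ hX' hX (fun x => mul_le_of_le_one_left (hX.nonneg x)
      (exp_le_one_iff.2 (neg_nonpos.2 l0))) y
    have h2 := lo y.2 (norm_pos_iff.1 (hy ▸ r0))
    rw [hy] at h2
    linarith

/-- **Y7**: the defect of the background is a multiple of the defect of the pole -/
theorem dd_bg [OpensMeasurableSpace (E × ℂ)] (hG : Gen S) (hX : (QY C β m).Dens X)
    (hs : ∀ y, X y ≠ 0 → ‖y.2‖ ^ 2 ≤ exp (-S')) (hr : ∀ y, X y ≠ 0 → ‖y.2‖ ≤ r) (r0 : 0 < r)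
    (hg : Glu S X r K) (h : Bg S X M δ κ ν) (hκ : exp 2 * κ ≤ 1) (M1 : 1 ≤ M) (hS : M + 4 ≤ S')
    {b : ℝ} (b1 : 1 ≤ b) (hK : b * (1 - log (r ^ 2)) ≤ K) (r1 : r ≤ 1)
    (hI : ∫ y, ν y ∂μ ≤ exp (b * (M + 4))) :
    ∫ y, |S.DD ν y - S.DD X y / (S' / (M + 4))| ∂μ ≤
      6 * (b * (M + 4)) + (S.G X / (S' / (M + 4)) - S.G ν) := by
  have M0 : 0 < M + 4 := by linarith
  refine dd_cmp hG h.dens hX ((one_le_div M0).2 hS) (by nlinarith) (fun l hl => ?_) hI
  have hP := hG.pg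
  have b0 : 0 ≤ l / (M + 4) := div_nonneg hl.1 M0.le
  have lr : log (r ^ 2) ≤ 0 := log_nonpos (by positivity) (pow_le_one₀ r0.le r1)
  have h1 := ms_le_ms hG (hP.dens_smul _ _ (exp_pos (-(S' / (M + 4) * l))).le hX) hX h.dens
    (K := l + 2) fun y o => by
      obtain ⟨s1, s2⟩ := h.supp y o
      have y0 : y.2 ≠ 0 := Bq.ne_of_gt s1.le
      have s3 : ‖y.2‖ < 1 / 2 := by
        refine lt_of_pow_lt_pow_left₀ 2 (by norm_num) (s2.trans_le ?_)
        refine (exp_le_exp.2 (by linarith : -(M + 1) ≤ -1 + -1)).trans ?_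
        rw [exp_add]
        nlinarith [exp_neg_one_lt_d9, exp_pos (-1)]
      refine (shift hG hX hs hr r0 (by linarith) hg b0 (mul_nonneg (div_nonneg (by linarith) M0.le)
        hl.1) (le_of_eq (by ring)) ((mul_le_mul_of_nonneg_right ((div_le_iff₀ M0).2 hl.2)
          (by linarith)).trans hK) y y0 s3).trans ?_
      have h2 := (lt_log_iff_exp_lt (by positivity)).2 s1
      have h3 := mul_le_mul_of_nonneg_left (show 1 - log (‖y.2‖ ^ 2) ≤ M + 4 by linarith) b0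
      rw [div_mul_cancel₀ _ M0.ne'] at h3
      linarith
  rw [hG.ms_smul]
  refine (mul_le_mul_of_nonneg_left (h1.trans (mul_le_mul_of_nonneg_left h.cost (exp_pos _).le))
    (exp_pos _).le).trans ?_
  rwa [← mul_assoc, ← exp_add, neg_add_cancel_left]

/-- **Y8**: the background of a shallower pole is free -/
theorem bg_free (hG : Gen S) (hX' : (QY C β m).Dens X') (h : Bg S X M δ κ ν)
    (h' : Bg S X' M δ' κ' ν') (hK : ∀ y, S.φ X y - K ≤ S.φ X' y) :
    II S.G ν' ν ≤ exp (δ + K) * κ' :=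
  (S.two _ _ h.dens h'.dens).2.trans ((ms_le_ms hG h.dens hX' h'.dens fun y o => by
    linarith [h.up y ((exp_le_exp.2 (by linarith)).trans (h'.supp y o).1.le), hK y]).trans
      (mul_le_mul_of_nonneg_left h'.cost (exp_pos _).le))

end Vale.Agent.P284Y.Bk
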