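import Vale.Agent.P284Y.Y.Bk.Sub

/-!
# P284Y, rows Y6 (chain), Y7, Y8: bookkeeping at one stage
-/

open Set

noncomputable section

namespace Vale.Agent.P284Y.Bk

/-- the data of one stage: poles `x0 x`, backgrounds `nu M x` -/
structure Stg (X Pt : Type*) [AddCommMonoid X] where
  P : X → Prop
  G : X → ℝ
  sm : SM P G
  x0 : Pt → X
  nu : ℝ → Pt → X
  good : Pt → Prop
  cb : ℝ
  M0 : ℝ
  M1 : ℝ
  cb_pos : 0 < cb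
  M0_pos : 0 < M0
  M0_le : M0 ≤ M1
  pnu : ∀ M ∈ Icc M0 M1, ∀ x, P (nu M x)

variable {X Pt : Type*} [AddCommMonoid X]

/-- the data of one level: probes `pr M y i`, the effective saving `K x y M` -/
structure Lv (S : Stg X Pt) where
  N : ℕ
  th : ℝ
  κ : ℝ
  ε : ℝ
  ρ : ℝ
  R : X →+ X
  pr : ℝ → Pt → ℕ → X
  gb : Pt → ℝ
  K : Pt → Pt → ℝ → ℝ
  m0 : ℝ
  m0_nonneg : 0 ≤ m0
  m0_le : 2 * m0 ≤ ε * S.M0
  hN : th * N = 1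
  th_pos : 0 < th
  ε_nonneg : 0 ≤ ε
  ε_le : 8 * ε ≤ κ
  κ_le : 4 * κ ≤ ρ ^ 2
  th_le : th ≤ ρ
  ρ_le : ρ ≤ 1 / 2
  rot : ∀ M ∈ Icc S.M0 S.M1, ∀ y, Rot S.P S.G R (pr M y)
  rnu : ∀ M ∈ Icc S.M0 S.M1, ∀ x, R (S.nu M x) = S.nu M x
  e1u : ∀ M ∈ Icc S.M0 S.M1, ∀ x y,
    II S.G (pr M y 0) (S.x0 x) ≤ II S.G (pr M y 0) (S.nu M x) + ε * (th * (S.cb * M))
  e1l : ∀ M ∈ Icc S.M0 S.M1, ∀ x y,
    II S.G (pr M y 0) (S.nu M x) ≤ II S.G (pr M y 0) (S.x0 x) + ε * (th * (S.cb * M))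
  e2u : ∀ M ∈ Icc S.M0 S.M1, ∀ x, S.G (S.nu M x) ≤ (1 + ε) * (S.cb * M)
  e2l : ∀ M ∈ Icc S.M0 S.M1, ∀ x, S.good x → (1 - ε) * (S.cb * M) ≤ S.G (S.nu M x)
  e3 : ∀ M ∈ Icc S.M0 S.M1, ∀ y, S.good y →
    II S.G (pr M y 0) (S.nu M y) ≤ gb y - 2 * (1 - ε) * (th * (S.cb * M))
  e4 : ∀ M ∈ Icc S.M0 S.M1, ∀ y, ∀ k : ℕ, N ≤ k → k ≤ 2 * N →
    k * gb y - (k * th) ^ 2 * (1 + ε) * (S.cb * M) ≤ S.G (arc (pr M y) k)
  kc : ∀ x y, ConcaveOn ℝ (Icc m0 S.M1) (K x y)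
  k0 : ∀ x y, -(ε * (th * (S.cb * S.M0))) ≤ K x y m0
  ks : ∀ M ∈ Icc S.M0 S.M1, ∀ x y,
    |K x y M - (gb y - II S.G (pr M y 0) (S.x0 x))| ≤ ε * (th * (S.cb * S.M0))

variable {S : Stg X Pt} {x y z : Pt} {M M' a d d' : ℝ}

/-- `I (ν^y | ν^x) ≤ d cb M` -/
def Stg.Cl (S : Stg X Pt) (M d : ℝ) (x y : Pt) : Prop :=
  II S.G (S.nu M y) (S.nu M x) ≤ d * (S.cb * M)

theorem Stg.Cl.trans (hM : M ∈ Icc S.M0 S.M1) (h : S.Cl M d x y) (h' : S.Cl M d' y z) :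
    S.Cl M (d + d') x z := by
  have := S.sm.tri (S.pnu M hM x) (S.pnu M hM y) (S.pnu M hM z)
  unfold Stg.Cl at *
  linarith

theorem Stg.U_pos (hM : M ∈ Icc S.M0 S.M1) : 0 < S.cb * M :=
  mul_pos S.cb_pos (S.M0_pos.trans_le hM.1)

theorem Stg.Cl.mono (hM : M ∈ Icc S.M0 S.M1) (h : S.Cl M d x y) (h' : d ≤ d') : S.Cl M d' x y :=
  le_trans h (mul_le_mul_of_nonneg_right h' (Stg.U_pos hM).le)

namespace Lv
variable (L : Lv S)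

/-- depth `a` is reached at `M` -/
def At (x y : Pt) (a M : ℝ) : Prop :=
  M ∈ Icc S.M0 S.M1 ∧ (2 * (1 - L.κ) * M + a) * (L.th * S.cb) ≤ L.K x y M

/-- `u(x, y) ≤ - q a` -/
def Deep (x y : Pt) (a : ℝ) : Prop := ∃ M, L.At x y a M

variable {L}

theorem κ_nonneg : 0 ≤ L.κ := by linarith [L.ε_nonneg, L.ε_le]

theorem κ_small : L.κ ≤ 1 / 16 := by
  nlinarith [L.κ_le, L.ρ_le, L.th_le, L.th_pos]

theorem err_le (hM : M ∈ Icc S.M0 S.M1) :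
    L.ε * (L.th * (S.cb * S.M0)) ≤ L.ε * (L.th * (S.cb * M)) := by
  have := L.ε_nonneg
  have := L.th_pos
  have := S.cb_pos
  gcongr
  exact hM.1

theorem Deep.mono {a' : ℝ} (h : L.Deep x y a) (ha : a' ≤ a) : L.Deep x y a' :=
  h.imp fun _ h => ⟨h.1, le_trans (mul_le_mul_of_nonneg_right (by linarith)
    (mul_pos L.th_pos S.cb_pos).le) h.2⟩

/-- the saving is at most `3 th cb M` -/
theorem sav_le (hM : M ∈ Icc S.M0 S.M1) (x y : Pt) :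
    L.gb y - II S.G (L.pr M y 0) (S.x0 x) ≤ (2 + 3 * L.ε) * (L.th * (S.cb * M)) := by
  have h := L.e4 M hM y L.N le_rfl (by omega)
  rw [mul_comm _ L.th, L.hN, one_pow, one_mul] at h
  exact S.sm.s2_up (L.rot M hM y) (S.pnu M hM x) (L.rnu M hM x) L.hN L.th_pos (L.e1l M hM x y)
    (L.e2u M hM x) h

theorem At.le (h : L.At x y a M) : a ≤ M := by
  have h1 := sav_le (L := L) h.1 x y
  have h2 := (abs_le.1 (L.ks M h.1 x y)).2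
  have h3 := err_le (L := L) h.1
  have h4 : (2 * (1 - L.κ) * M + a) * (L.th * S.cb) ≤ ((2 + 4 * L.ε) * M) * (L.th * S.cb) := by
    linarith [h.2]
  have h5 := le_of_mul_le_mul_right h4 (mul_pos L.th_pos S.cb_pos)
  have h6 := S.M0_pos.trans_le h.1.1
  nlinarith [L.ε_le, κ_small (L := L), L.ε_nonneg]

/-- `u ≤ 3 q M0` -/
theorem deep_base (px : S.P (S.x0 x)) (hg : S.G (L.pr S.M0 y 0) ≤ L.gb y) :
    L.Deep x y (-(3 * S.M0)) := by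
  have hM : S.M0 ∈ Icc S.M0 S.M1 := ⟨le_rfl, S.M0_le⟩
  refine ⟨_, hM, ?_⟩
  have h1 := (abs_le.1 (L.ks _ hM x y)).1
  have h2 := S.sm.II_le px ((L.rot _ hM y).pp 0)
  have h3 := mul_pos L.th_pos (Stg.U_pos hM)
  have h4 := mul_le_mul_of_nonneg_right (show L.ε ≤ 1 + 2 * L.κ by
    linarith [L.ε_le, κ_small (L := L), κ_nonneg (L := L)]) h3.le
  linarith

/-- concavity in `M` and **S2** -/
theorem At.close (h : L.At x y a M) (ha : 0 ≤ a) (h0 : S.M0 ≤ M') (h1 : M' ≤ M) (gx : S.good x)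
    (gy : S.good y) : S.Cl M' (5 * L.ρ) x y ∧ S.Cl M' (5 * L.ρ) y x := by
  have hM : M' ∈ Icc S.M0 S.M1 := ⟨h0, h1.trans h.1.2⟩
  have m0 := S.M0_pos.trans_le h.1.1
  have m1 := S.M0_pos.trans_le h0
  have tc := mul_pos L.th_pos S.cb_pos
  have e0 : 0 ≤ L.ε * (L.th * (S.cb * S.M0)) :=
    mul_nonneg L.ε_nonneg (mul_pos L.th_pos (mul_pos S.cb_pos S.M0_pos)).le
  have n1 : L.m0 < S.M0 := by
    nlinarith [L.m0_le, L.ε_le, κ_small (L := L), S.M0_pos]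
  have n2 : 0 < M - L.m0 := by linarith [h.1.1]
  obtain ⟨r, hr⟩ : ∃ r, r = (M' - L.m0) / (M - L.m0) := ⟨_, rfl⟩
  have r0 : 0 ≤ r := hr ▸ div_nonneg (by linarith) n2.le
  have r1 : r ≤ 1 := hr ▸ (div_le_one n2).2 (by linarith)
  have r2 : (1 - r) * L.m0 + r * M = M' := by
    rw [hr]
    field_simp
    ring
  have c1 := (L.kc x y).2 (⟨le_rfl, by linarith [h.1.1, h.1.2]⟩ : L.m0 ∈ Icc L.m0 S.M1)
    (⟨by linarith, h.1.2⟩ : M ∈ Icc L.m0 S.M1) (sub_nonneg.2 r1) r0 (by ring)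
  simp only [smul_eq_mul, r2] at c1
  have k1 : 0 ≤ 2 * (1 - L.κ) * (L.th * S.cb) := by
    have := κ_small (L := L)
    exact mul_nonneg (by linarith) tc.le
  have c2 := mul_le_mul_of_nonneg_left (le_trans (mul_le_mul_of_nonneg_right
    (le_add_of_nonneg_right ha) tc.le) h.2) r0
  have c3 := mul_le_mul_of_nonneg_left (L.k0 x y) (sub_nonneg.2 r1)
  have c4 := mul_nonneg r0 e0
  have c7 := mul_le_mul_of_nonneg_right (show M' - L.m0 ≤ r * M by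
    linarith [mul_nonneg r0 L.m0_nonneg]) k1
  have c8 := mul_le_mul_of_nonneg_right L.m0_le tc.le
  have c9 := mul_nonneg (mul_nonneg (κ_nonneg (L := L)) L.m0_nonneg) tc.le
  have c5 := (abs_le.1 (L.ks _ hM x y)).2
  have c6 := err_le (L := L) hM
  have U0 := Stg.U_pos hM
  have s := S.sm.s2 (κ := L.κ + 3 / 2 * L.ε) (L.rot _ hM y) (S.pnu _ hM x) (S.pnu _ hM y) (L.rnu _ hM x)
    (L.rnu _ hM y) L.hN L.th_pos U0.le L.ε_nonneg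
    (by linarith [L.ε_le, L.κ_le, L.ε_nonneg]) L.th_le L.ρ_le (L.e1l _ hM x y) (L.e2u _ hM x)
    (L.e2u _ hM y) (L.e3 _ hM y gy) (L.e4 _ hM y) (by linarith)
  have r := mul_le_mul_of_nonneg_right (show L.ε ≤ L.ρ by
    nlinarith [L.ε_le, L.κ_le, L.ρ_le, L.th_le, L.th_pos, L.ε_nonneg]) U0.le
  unfold Stg.Cl II
  rw [add_comm (S.nu M' y)]
  constructor <;> linarith [L.e2l _ hM x gx, L.e2l _ hM y gy]

/-- **E5** -/
theorem at_of_close (hM : M ∈ Icc S.M0 S.M1) (h : S.Cl M (L.th * L.κ / 2) x y) (gy : S.good y) :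
    L.At x y (L.κ * M) M := by
  refine ⟨hM, ?_⟩
  have h1 := S.sm.e5 ((L.rot _ hM y).pp 0) (S.pnu _ hM x) (S.pnu _ hM y) (L.e1u _ hM x y)
    (L.e3 _ hM y gy)
  have h2 := (abs_le.1 (L.ks _ hM x y)).1
  have h3 := err_le (L := L) hM
  have h4 := mul_le_mul_of_nonneg_right L.ε_le (mul_pos L.th_pos (Stg.U_pos hM)).le
  unfold Stg.Cl at h
  linarith

/-- depth `a` in one of the two orders -/
def Dp (L : Lv S) (x y : Pt) (a : ℝ) : Prop := L.Deep x y a ∨ L.Deep y x a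

theorem Dp.close (h : L.Dp x y a) (ha : 0 ≤ a) (gx : S.good x) (gy : S.good y) :
    ∃ M ∈ Icc S.M0 S.M1, a ≤ M ∧ ∀ M', S.M0 ≤ M' → M' ≤ M →
      S.Cl M' (5 * L.ρ) x y ∧ S.Cl M' (5 * L.ρ) y x := by
  rcases h with ⟨M, h⟩ | ⟨M, h⟩
  · exact ⟨M, h.1, h.le, fun _ h0 h1 => h.close ha h0 h1 gx gy⟩
  · exact ⟨M, h.1, h.le, fun _ h0 h1 => (h.close ha h0 h1 gy gx).symm⟩

/-- **Y6**, the chain -/
theorem chain {L L' : Lv S} (hρ : 30 * L'.ρ ≤ L.th * L.κ) {x₁ x₂ x₃ x₄ : Pt} (g₁ : S.good x₁)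
    (g₂ : S.good x₂) (g₃ : S.good x₃) (g₄ : S.good x₄) (ha : 0 ≤ a) (h₁ : L'.Dp x₁ x₂ a)
    (h₂ : L'.Dp x₂ x₃ a) (h₃ : L'.Dp x₃ x₄ a) :
    L.Deep x₁ x₄ (L.κ * a) ∧ L.Deep x₄ x₁ (L.κ * a) := by
  obtain ⟨M₁, m₁, a₁, c₁⟩ := h₁.close ha g₁ g₂
  obtain ⟨M₂, m₂, a₂, c₂⟩ := h₂.close ha g₂ g₃
  obtain ⟨M₃, m₃, a₃, c₃⟩ := h₃.close ha g₃ g₄
  obtain ⟨M, hM, aM, b₁, b₂, b₃⟩ : ∃ M, S.M0 ≤ M ∧ a ≤ M ∧ M ≤ M₁ ∧ M ≤ M₂ ∧ M ≤ M₃ :=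
    ⟨min M₁ (min M₂ M₃), le_min m₁.1 (le_min m₂.1 m₃.1), le_min a₁ (le_min a₂ a₃),
      min_le_left _ _, (min_le_right _ _).trans (min_le_left _ _),
      (min_le_right _ _).trans (min_le_right _ _)⟩
  have m : M ∈ Icc S.M0 S.M1 := ⟨hM, b₁.trans m₁.2⟩
  have k := mul_le_mul_of_nonneg_left aM (κ_nonneg (L := L))
  refine ⟨Deep.mono ⟨M, at_of_close m ?_ g₄⟩ k, Deep.mono ⟨M, at_of_close m ?_ g₁⟩ k⟩
  · exact (((c₁ M hM b₁).1.trans m (c₂ M hM b₂).1).trans m (c₃ M hM b₃).1).mono m (by linarith)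
  · exact (((c₃ M hM b₃).2.trans m (c₂ M hM b₂).2).trans m (c₁ M hM b₁).2).mono m (by linarith)

/-- **Y8**: a background `a` which is free given `ν^x` and `ν^y` at `M` -/
theorem pole (hM : M ∈ Icc S.M0 S.M1) {b : X} {η : ℝ} (hb : S.P b) (gy : S.good y)
    (fx : II S.G b (S.nu M x) ≤ η * (S.cb * M)) (fy : II S.G b (S.nu M y) ≤ η * (S.cb * M))
    (lo : (1 - η) * (S.cb * M) ≤ S.G b) (up : S.G (S.nu M y) ≤ (1 + η) * (S.cb * M))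
    (hη : 8 * η ≤ L.th * L.κ) : L.Deep x y (L.κ * M) := by
  refine ⟨M, at_of_close hM ?_ gy⟩
  have h := S.sm.via hb (S.pnu _ hM x) (S.pnu _ hM y) fx fy
  have h4 := mul_le_mul_of_nonneg_right hη (Stg.U_pos hM).le
  unfold Stg.Cl
  linarith

end Lv

end Vale.Agent.P284Y.Bk
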